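import Vale.Agent.PolyDiff.Special

/-!
# P042: lower bounds for `r_h(N)` for the polynomials `h = (x - a) ^ k * g(x)`
-/

namespace Vale.Agent.Results.P042.DigitLower

open Polynomial Vale.Agent.PolyDiff

/-- `h` is intersective: it has a root modulo every `q ≥ 1`. -/
def Intersective (h : ℤ[X]) : Prop := ∀ q : ℕ, 1 ≤ q → ∃ t : ℤ, (q : ℤ) ∣ h.eval t

/-- Let `k ≥ 3` be such that `p = 2 k + 1` is prime, let `g ∈ ℤ[x]` have no root modulo `p`, let
`a` be an integer and `h = (x - a) ^ k g(x)`.  Then `h` is intersective, and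
`r_h(N) ≥ N ^ γ / (k (2 k + 1) ^ (k - 1)) ^ 2` for all `N ≥ 1`, where
`γ = 1 - (1 - log k / log (2 k + 1)) / k`; if `deg g ≤ k` then `γ > 1 - 1 / deg h`.  In
particular this applies to `h = x ^ 5 + x ^ 3` (with `k = 3`, `p = 7`, `a = 0`). -/
theorem result :
    (∀ (k : ℕ) (g : ℤ[X]) (a : ℤ), 3 ≤ k → (2 * k + 1).Prime →
      (∀ x : ℤ, ¬ ((2 * k + 1 : ℕ) : ℤ) ∣ g.eval x) →
      Intersective ((X - C a) ^ k * g) ∧
      (∀ N : ℕ, 1 ≤ N →
        (N : ℝ) ^ (1 - (1 - Real.log k / Real.log (2 * k + 1)) / k) /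
          ((k : ℝ) * (2 * k + 1) ^ (k - 1)) ^ 2 ≤ rPoly ((X - C a) ^ k * g) N) ∧
      (g.natDegree ≤ k →
        1 - 1 / (((X - C a) ^ k * g).natDegree : ℝ) <
          1 - (1 - Real.log k / Real.log (2 * k + 1)) / k)) ∧
    (Intersective (X ^ 5 + X ^ 3 : ℤ[X]) ∧
      (∀ N : ℕ, 1 ≤ N →
        (N : ℝ) ^ (1 - (1 - Real.log 3 / Real.log 7) / 3) / 147 ^ 2 ≤
          rPoly (X ^ 5 + X ^ 3) N) ∧
      (4 / 5 : ℝ) < 1 - (1 - Real.log 3 / Real.log 7) / 3) := by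
  have main : ∀ (k : ℕ) (g : ℤ[X]) (a : ℤ), 3 ≤ k → (2 * k + 1).Prime →
      (∀ x : ℤ, ¬ ((2 * k + 1 : ℕ) : ℤ) ∣ g.eval x) →
      Intersective ((X - C a) ^ k * g) ∧
      (∀ N : ℕ, 1 ≤ N →
        (N : ℝ) ^ (1 - (1 - Real.log k / Real.log (2 * k + 1)) / k) /
          ((k : ℝ) * (2 * k + 1) ^ (k - 1)) ^ 2 ≤ rPoly ((X - C a) ^ k * g) N) ∧
      (g.natDegree ≤ k →
        1 - 1 / (((X - C a) ^ k * g).natDegree : ℝ) <
          1 - (1 - Real.log k / Real.log (2 * k + 1)) / k) := by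
    intro k g a hk hp hroot
    have hg0 : g ≠ 0 := by
      rintro rfl
      exact hroot 0 (by simp)
    refine ⟨fun q _ => ⟨a, ?_⟩, fun N hN => special (by omega) hp a hroot N hN, fun hdeg => ?_⟩
    · rw [Polynomial.eval_mul, Polynomial.eval_pow, Polynomial.eval_sub, Polynomial.eval_X,
        Polynomial.eval_C, sub_self, zero_pow (by omega), zero_mul]
      exact dvd_zero _
    · have h1 : ((X - C a) ^ k * g).natDegree = k + g.natDegree := by
        rw [Polynomial.natDegree_mul (pow_ne_zero _ (Polynomial.X_sub_C_ne_zero a)) hg0,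
          Polynomial.natDegree_pow, Polynomial.natDegree_X_sub_C, mul_one]
      rw [h1]
      exact expo_gt hk hdeg
  refine ⟨main, ?_⟩
  have hpoly : (X ^ 5 + X ^ 3 : ℤ[X]) = (X - C 0) ^ 3 * (X ^ 2 + 1) := by
    rw [Polynomial.C_0]
    ring
  have hroot7 : ∀ x : ℤ, ¬ ((2 * 3 + 1 : ℕ) : ℤ) ∣ (X ^ 2 + 1 : ℤ[X]).eval x := by
    intro x hx
    have h1 : (X ^ 2 + 1 : ℤ[X]).eval x = x ^ 2 + 1 := by simp
    rw [h1] at hx
    have h2 : ((2 * 3 + 1 : ℕ) : ℤ) = 7 := by norm_num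
    rw [h2] at hx
    have h3 : x % 7 = 0 ∨ x % 7 = 1 ∨ x % 7 = 2 ∨ x % 7 = 3 ∨ x % 7 = 4 ∨ x % 7 = 5 ∨ x % 7 = 6 := by
      omega
    have h4 : (x ^ 2 + 1) % 7 = 0 := Int.emod_eq_zero_of_dvd hx
    rw [Int.add_emod, pow_two, Int.mul_emod] at h4
    rcases h3 with h | h | h | h | h | h | h <;> rw [h] at h4 <;> norm_num at h4
  obtain ⟨m1, m2, m3⟩ := main 3 (X ^ 2 + 1) 0 le_rfl (by norm_num) hroot7
  rw [hpoly]
  refine ⟨m1, fun N hN => ?_, ?_⟩
  · have h := m2 N hN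
    norm_num at h ⊢
    exact h
  · have hd : (X ^ 2 + 1 : ℤ[X]).natDegree = 2 := by
      have := Polynomial.natDegree_X_pow_add_C (R := ℤ) (n := 2) (r := 1)
      simpa using this
    have h := m3 (by rw [hd]; norm_num)
    have hd2 : ((X - C 0) ^ 3 * (X ^ 2 + 1) : ℤ[X]).natDegree = 5 := by
      have hne : (X ^ 2 + 1 : ℤ[X]) ≠ 0 := by
        intro h0
        rw [h0] at hd
        simp at hd
      rw [Polynomial.natDegree_mul (pow_ne_zero _ (Polynomial.X_sub_C_ne_zero 0)) hne,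
        Polynomial.natDegree_pow, Polynomial.natDegree_X_sub_C, hd]
    rw [hd2] at h
    norm_num at h ⊢
    exact h

end Vale.Agent.Results.P042.DigitLower
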